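import Vale.Agent.P038.Defs

/-!
# Seymour's second neighbourhood conjecture: the min-cut argument (unweighted)
-/

open Finset

namespace Vale.Agent.P038.H112

open Classical

/-! ### Abstract part: constrained minima of a submodular function -/

section Abs

variable {V : Type*} [Fintype V]

/-- The minimum of `c` over the interval `[Y, K]`. -/
noncomputable def cK (c : Finset V → ℤ) (K Y : Finset V) : ℤ :=
  if h : Y ⊆ K then (K.powerset.filter (Y ⊆ ·)).inf' ⟨Y, by simpa using h⟩ c else 0

theorem cK_le (c : Finset V → ℤ) {K Y Z : Finset V} (h1 : Y ⊆ Z) (h2 : Z ⊆ K) :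
    cK c K Y ≤ c Z := by
  unfold cK
  rw [dif_pos (h1.trans h2)]
  exact Finset.inf'_le _ (by simp [h1, h2])

theorem cK_attain (c : Finset V → ℤ) {K Y : Finset V} (h : Y ⊆ K) :
    ∃ Z, Y ⊆ Z ∧ Z ⊆ K ∧ c Z = cK c K Y := by
  unfold cK
  rw [dif_pos h]
  obtain ⟨Z, hZ, hZ'⟩ := Finset.exists_mem_eq_inf'
    (⟨Y, by simpa using h⟩ : (K.powerset.filter (Y ⊆ ·)).Nonempty) c
  rw [Finset.mem_filter, Finset.mem_powerset] at hZ
  exact ⟨Z, hZ.2, hZ.1, hZ'.symm⟩

theorem cK_mono (c : Finset V → ℤ) {K Y Y' : Finset V} (h : Y ⊆ Y') (h' : Y' ⊆ K) :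
    cK c K Y ≤ cK c K Y' := by
  obtain ⟨Z, h1, h2, h3⟩ := cK_attain c h'
  rw [← h3]
  exact cK_le c (h.trans h1) h2

theorem cK_self (c : Finset V → ℤ) (K : Finset V) : cK c K K = c K := by
  obtain ⟨Z, h1, h2, h3⟩ := cK_attain c (Finset.Subset.refl K)
  rw [← h3, Finset.Subset.antisymm h1 h2]

theorem cK_eq (c : Finset V → ℤ) {K Y : Finset V} (h : Y ⊆ K)
    (hm : ∀ Z, Y ⊆ Z → Z ⊆ K → c Y ≤ c Z) : cK c K Y = c Y := by
  apply le_antisymm (cK_le c (Finset.Subset.refl Y) h)
  obtain ⟨Z, h1, h2, h3⟩ := cK_attain c h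
  rw [← h3]
  exact hm Z h1 h2

/-- Submodularity. -/
def Sub (c : Finset V → ℤ) : Prop := ∀ S T, c (S ∩ T) + c (S ∪ T) ≤ c S + c T

theorem cK_marg {c : Finset V → ℤ} (hc : Sub c) {K K' X Y : Finset V} {b : V}
    (hK : K' ⊆ K) (hXY : X ⊆ Y) (hX : X ⊆ K') (hY : Y ⊆ K) (hb : b ∈ K') :
    cK c K (insert b Y) + cK c K' X ≤ cK c K' (insert b X) + cK c K Y := by
  obtain ⟨Z', a1, a2, a3⟩ := cK_attain c (K := K') (Y := insert b X)
    (Finset.insert_subset hb hX)
  obtain ⟨Z, b1, b2, b3⟩ := cK_attain c (K := K) (Y := Y) hY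
  have h1 : cK c K' X ≤ c (Z' ∩ Z) := by
    apply cK_le c
    · exact Finset.subset_inter ((Finset.subset_insert b X).trans a1) (hXY.trans b1)
    · exact Finset.inter_subset_left.trans a2
  have h2 : cK c K (insert b Y) ≤ c (Z' ∪ Z) := by
    apply cK_le c
    · apply Finset.insert_subset
      · exact Finset.mem_union_left _ (a1 (Finset.mem_insert_self b X))
      · exact b1.trans Finset.subset_union_right
    · exact Finset.union_subset (a2.trans hK) b2
  have h3 := hc Z' Z
  rw [← a3, ← b3]
  linarith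

/-- Comparison of sums from comparison of upper level sets. -/
theorem sum_le_of_levels (f g : V → ℕ)
    (h : ∀ s : ℕ, (univ.filter fun v => s < f v).card ≤ (univ.filter fun v => s < g v).card) :
    ∑ v, f v ≤ ∑ v, g v := by
  have key : ∀ (u : V → ℕ) (N : ℕ), (∀ v, u v ≤ N) →
      ∑ v, u v = ∑ s ∈ range N, (univ.filter fun v => s < u v).card := by
    intro u N hN
    have : ∀ v, u v = ∑ s ∈ range N, if s < u v then 1 else 0 := by
      intro v
      rw [← Finset.sum_filter, Finset.sum_const, smul_eq_mul, mul_one]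
      have : (range N).filter (fun s => s < u v) = range (u v) := by
        ext s
        simp only [Finset.mem_filter, Finset.mem_range]
        exact ⟨fun h => h.2, fun h => ⟨lt_of_lt_of_le h (hN v), h⟩⟩
      rw [this, Finset.card_range]
    calc ∑ v, u v = ∑ v, ∑ s ∈ range N, (if s < u v then 1 else 0) :=
          Finset.sum_congr rfl fun v _ => this v
      _ = ∑ s ∈ range N, ∑ v, (if s < u v then 1 else 0) := Finset.sum_comm
      _ = _ := by
          apply Finset.sum_congr rfl
          intro s _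
          rw [← Finset.sum_filter, Finset.sum_const, smul_eq_mul, mul_one]
  have hf : ∀ v, f v ≤ (∑ v, f v) + ∑ v, g v := fun v =>
    (Finset.single_le_sum (f := f) (fun _ _ => Nat.zero_le _) (Finset.mem_univ v)).trans
      (Nat.le_add_right _ _)
  have hg : ∀ v, g v ≤ (∑ v, f v) + ∑ v, g v := fun v =>
    (Finset.single_le_sum (f := g) (fun _ _ => Nat.zero_le _) (Finset.mem_univ v)).trans
      (Nat.le_add_left _ _)
  have e1 := key f _ hf
  have e2 := key g _ hg
  calc ∑ v, f v = _ := e1
    _ ≤ _ := Finset.sum_le_sum fun s _ => h s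
    _ = ∑ v, g v := e2.symm

theorem sum_le_of_levels_int (f g : V → ℤ) (hf : ∀ v, 0 ≤ f v) (hg : ∀ v, 0 ≤ g v)
    (h : ∀ s : ℤ, 0 ≤ s →
      (univ.filter fun v => s < f v).card ≤ (univ.filter fun v => s < g v).card) :
    ∑ v, f v ≤ ∑ v, g v := by
  have key := sum_le_of_levels (fun v => (f v).toNat) (fun v => (g v).toNat) (by
    intro s
    have h1 := h (s : ℤ) (Int.natCast_nonneg s)
    have e1 : (univ.filter fun v => s < (f v).toNat) = univ.filter fun v => (s : ℤ) < f v := by
      ext v; simp only [Finset.mem_filter, Finset.mem_univ, true_and]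
      exact Int.lt_toNat
    have e2 : (univ.filter fun v => s < (g v).toNat) = univ.filter fun v => (s : ℤ) < g v := by
      ext v; simp only [Finset.mem_filter, Finset.mem_univ, true_and]
      exact Int.lt_toNat
    rw [e1, e2]
    exact h1)
  have hF : ∑ v, f v = ((∑ v, (f v).toNat : ℕ) : ℤ) := by
    push_cast
    exact Finset.sum_congr rfl fun v _ => (Int.toNat_of_nonneg (hf v)).symm
  have hG : ∑ v, g v = ((∑ v, (g v).toNat : ℕ) : ℤ) := by
    push_cast
    exact Finset.sum_congr rfl fun v _ => (Int.toNat_of_nonneg (hg v)).symm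
  rw [hF, hG]
  exact_mod_cast key

/-- Intersection of the rows over the (closed) in-neighbours. -/
noncomputable def II (R : V → V → Prop) (P : V → Finset V) (a : V) : Finset V :=
  univ.filter fun x => ∀ z, R z a → x ∈ P z

theorem mem_II {R : V → V → Prop} {P : V → Finset V} {a x : V} :
    x ∈ II R P a ↔ ∀ z, R z a → x ∈ P z := by simp [II]

/-- Row optimality passes to intersections. -/
theorem row_II {c : Finset V → ℤ} (hc : Sub c) (R : V → V → Prop) (P K : V → Finset V)
    (hPK' : ∀ a, P a ⊆ K a)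
    (hrow : ∀ a S, P a ⊆ S → S ⊆ K a → c (P a) ≤ c S) (a : V) (Z : Finset V)
    (h1 : II R P a ⊆ Z) (h2 : Z ⊆ II R K a) : c (II R P a) ≤ c Z := by
  have key : ∀ J : Finset V, (∀ z ∈ J, R z a) →
      c (Z.filter fun x => ∀ z ∈ J, x ∈ P z) ≤ c Z := by
    intro J
    induction J using Finset.induction_on with
    | empty => intro _; simp
    | insert z J hz ih =>
      intro hJ
      have ih' := ih fun y hy => hJ y (Finset.mem_insert_of_mem hy)
      set W := Z.filter fun x => ∀ z ∈ J, x ∈ P z with hW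
      have e : (Z.filter fun x => ∀ y ∈ insert z J, x ∈ P y) = W ∩ P z := by
        ext x
        simp only [hW, Finset.mem_filter, Finset.mem_inter, Finset.mem_insert, forall_eq_or_imp]
        tauto
      rw [e]
      have hsub := hc W (P z)
      have hr := hrow z (W ∪ P z) Finset.subset_union_right (by
        apply Finset.union_subset
        · intro x hx
          have hx' : x ∈ Z := (Finset.mem_filter.1 hx).1
          exact mem_II.1 (h2 hx') z (hJ z (Finset.mem_insert_self z J))
        · exact hPK' z)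
      linarith
  have h3 := key (univ.filter fun z => R z a) (by simp)
  have e : (Z.filter fun x => ∀ z ∈ univ.filter (fun z => R z a), x ∈ P z) = II R P a := by
    ext x
    simp only [Finset.mem_filter, Finset.mem_univ, true_and, mem_II]
    exact ⟨fun h => h.2, fun h => ⟨h1 (mem_II.2 h), h⟩⟩
  rwa [e] at h3

/-- The elements of rank `< k`. -/
noncomputable def Lo (k : ℕ) : Finset V := univ.filter fun v => ((Fintype.equivFin V) v).val < k

theorem mem_Lo {k : ℕ} {v : V} : v ∈ (Lo k : Finset V) ↔ ((Fintype.equivFin V) v).val < k := by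
  simp [Lo]

/-- Greedy values. -/
noncomputable def MM (c : Finset V → ℤ) (P K : V → Finset V) (a : V) (k : ℕ) : ℤ :=
  cK c (K a) (P a ∪ (K a ∩ Lo k))

theorem MM_zero (c : Finset V → ℤ) (P K : V → Finset V) (a : V) :
    MM c P K a 0 = cK c (K a) (P a) := by
  unfold MM
  have : (Lo 0 : Finset V) = ∅ := by ext; simp [mem_Lo]
  rw [this]; simp

theorem MM_top (c : Finset V → ℤ) (P K : V → Finset V) (hPK : ∀ a, P a ⊆ K a) (a : V) :
    MM c P K a (Fintype.card V) = c (K a) := by
  unfold MM
  have : (Lo (Fintype.card V) : Finset V) = univ := by ext v; simp [mem_Lo]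
  rw [this, Finset.inter_univ, Finset.union_eq_right.2 (hPK a), cK_self]

theorem MM_mono (c : Finset V → ℤ) (P K : V → Finset V) (hPK : ∀ a, P a ⊆ K a) (a : V) (k : ℕ) :
    MM c P K a k ≤ MM c P K a (k + 1) := by
  unfold MM
  apply cK_mono
  · apply Finset.union_subset_union (Finset.Subset.refl _)
    apply Finset.inter_subset_inter (Finset.Subset.refl _)
    intro v hv
    rw [mem_Lo] at hv ⊢
    omega
  · exact Finset.union_subset (hPK a) Finset.inter_subset_left

theorem MM_same (c : Finset V → ℤ) (P K : V → Finset V) (a b : V)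
    (h : b ∈ K a → b ∈ P a) :
    MM c P K a (((Fintype.equivFin V) b).val + 1) = MM c P K a ((Fintype.equivFin V) b).val := by
  unfold MM
  congr 1
  ext x
  simp only [Finset.mem_union, Finset.mem_inter, mem_Lo]
  constructor
  · rintro (hx | ⟨hx, hx'⟩)
    · exact Or.inl hx
    · rcases Nat.lt_succ_iff_lt_or_eq.1 hx' with h' | h'
      · exact Or.inr ⟨hx, h'⟩
      · have : x = b := (Fintype.equivFin V).injective (Fin.ext h')
        subst this
        exact Or.inl (h hx)
  · rintro (hx | ⟨hx, hx'⟩)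
    · exact Or.inl hx
    · exact Or.inr ⟨hx, by omega⟩

theorem ins_eq (P K : V → Finset V) (a b : V) (h : b ∈ K a) :
    P a ∪ (K a ∩ Lo (((Fintype.equivFin V) b).val + 1)) =
      insert b (P a ∪ (K a ∩ Lo ((Fintype.equivFin V) b).val)) := by
  ext x
  simp only [Finset.mem_union, Finset.mem_inter, mem_Lo, Finset.mem_insert]
  constructor
  · rintro (hx | ⟨hx, hx'⟩)
    · exact Or.inr (Or.inl hx)
    · rcases Nat.lt_succ_iff_lt_or_eq.1 hx' with h' | h'
      · exact Or.inr (Or.inr ⟨hx, h'⟩)
      · exact Or.inl ((Fintype.equivFin V).injective (Fin.ext h'))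
  · rintro (hx | hx | ⟨hx, hx'⟩)
    · subst hx
      exact Or.inr ⟨h, Nat.lt_succ_self _⟩
    · exact Or.inl hx
    · exact Or.inr ⟨hx, by omega⟩

/-- The key inequality. -/
theorem star {c : Finset V → ℤ} (hc : Sub c) (R : V → V → Prop)
    (P K : V → Finset V) (hPK : ∀ a, P a ⊆ K a)
    (hrow : ∀ a S, P a ⊆ S → S ⊆ K a → c (P a) ≤ c S)
    (hcol : ∀ b (T : Finset V), (∀ z ∈ T, b ∈ K z ∧ b ∉ P z) →
      T.card ≤ (univ.filter fun a => (∃ z ∈ T, R z a) ∧ ∀ z, R z a → b ∈ K z).card) :
    ∑ a, (c (K a) - c (P a)) ≤ ∑ a, (c (II R K a) - c (II R P a)) := by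
  have hII : ∀ a, II R P a ⊆ II R K a := fun a x hx =>
    mem_II.2 fun z hz => hPK z (mem_II.1 hx z hz)
  have hrow' := row_II hc R P K hPK hrow
  have tel1 : ∀ a, c (K a) - c (P a) =
      ∑ k ∈ range (Fintype.card V), (MM c P K a (k + 1) - MM c P K a k) := by
    intro a
    rw [Finset.sum_range_sub, MM_zero, MM_top c P K hPK, cK_eq c (hPK a) (hrow a)]
  have tel2 : ∀ a, c (II R K a) - c (II R P a) =
      ∑ k ∈ range (Fintype.card V),
        (MM c (II R P) (II R K) a (k + 1) - MM c (II R P) (II R K) a k) := by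
    intro a
    rw [Finset.sum_range_sub, MM_zero, MM_top c _ _ hII, cK_eq c (hII a) (hrow' a)]
  rw [Finset.sum_congr rfl fun a _ => tel1 a, Finset.sum_congr rfl fun a _ => tel2 a,
    Finset.sum_comm, Finset.sum_comm (s := univ) (t := range (Fintype.card V))]
  apply Finset.sum_le_sum
  intro k hk
  rw [Finset.mem_range] at hk
  set b : V := (Fintype.equivFin V).symm ⟨k, hk⟩ with hb
  have hbk : ((Fintype.equivFin V) b).val = k := by rw [hb]; simp
  apply sum_le_of_levels_int
  · intro a; exact sub_nonneg.2 (MM_mono c P K hPK a k)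
  · intro a; exact sub_nonneg.2 (MM_mono c _ _ hII a k)
  · intro s hs
    have h1 := hcol b (univ.filter fun a => s < MM c P K a (k + 1) - MM c P K a k) (by
      intro z hz
      rw [Finset.mem_filter] at hz
      by_contra hcon
      have : b ∈ K z → b ∈ P z := fun h => by
        by_contra h'
        exact hcon ⟨h, h'⟩
      have h2 := MM_same c P K z b this
      rw [hbk] at h2
      rw [h2] at hz
      have := hz.2
      omega)
    refine h1.trans (Finset.card_le_card ?_)
    intro a ha
    rw [Finset.mem_filter] at ha ⊢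
    obtain ⟨_, ⟨z, hz, hza⟩, hall⟩ := ha
    rw [Finset.mem_filter] at hz
    refine ⟨Finset.mem_univ _, lt_of_lt_of_le hz.2 ?_⟩
    have hba : b ∈ II R K a := mem_II.2 hall
    have hKa : II R K a ⊆ K z := fun x hx => mem_II.1 hx z hza
    have hPa : II R P a ⊆ P z := fun x hx => mem_II.1 hx z hza
    have hm := cK_marg hc (K := K z) (K' := II R K a) (X := II R P a ∪ (II R K a ∩ Lo k))
      (Y := P z ∪ (K z ∩ Lo k)) (b := b) hKa
      (Finset.union_subset_union hPa (Finset.inter_subset_inter hKa (Finset.Subset.refl _)))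
      (Finset.union_subset (hII a) Finset.inter_subset_left)
      (Finset.union_subset (hPK z) Finset.inter_subset_left) hba
    have e1 := ins_eq P K z b (hKa hba)
    have e2 := ins_eq (II R P) (II R K) a b hba
    rw [hbk] at e1 e2
    rw [← e1, ← e2] at hm
    unfold MM
    linarith

theorem card_eq_sum (S : Finset V) : (S.card : ℤ) = ∑ a, if a ∈ S then (1 : ℤ) else 0 := by
  simp

theorem count_ge (F G : V → Finset V) (h : ∀ a b, a ≠ b → a ∈ F b ∨ b ∈ G a)
    (hd : ∀ a, a ∈ F a ∧ a ∈ G a) :
    (∑ a : V, ∑ b : V, ((1 : ℤ) + if a = b then 1 else 0)) ≤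
      ∑ b, ((F b).card : ℤ) + ∑ a, ((G a).card : ℤ) := by
  have e : ∑ b, ((F b).card : ℤ) = ∑ a, ∑ b, if a ∈ F b then (1 : ℤ) else 0 := by
    rw [Finset.sum_congr rfl fun b _ => card_eq_sum (F b)]
    exact Finset.sum_comm
  rw [e, Finset.sum_congr rfl fun a _ => card_eq_sum (G a), ← Finset.sum_add_distrib]
  apply Finset.sum_le_sum
  intro a _
  rw [← Finset.sum_add_distrib]
  apply Finset.sum_le_sum
  intro b _
  by_cases hab : a = b
  · subst hab
    simp [(hd a).1, (hd a).2]
  · rcases h a b hab with h1 | h1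
    · rw [if_neg hab, if_pos h1]; split_ifs <;> norm_num
    · rw [if_neg hab, if_pos h1]; split_ifs <;> norm_num

theorem count_le (F G : V → Finset V) (h : ∀ a b, a ∈ F b → b ∈ G a → a = b) :
    ∑ b, ((F b).card : ℤ) + ∑ a, ((G a).card : ℤ) ≤
      (∑ a : V, ∑ b : V, ((1 : ℤ) + if a = b then 1 else 0)) := by
  have e : ∑ b, ((F b).card : ℤ) = ∑ a, ∑ b, if a ∈ F b then (1 : ℤ) else 0 := by
    rw [Finset.sum_congr rfl fun b _ => card_eq_sum (F b)]
    exact Finset.sum_comm
  rw [e, Finset.sum_congr rfl fun a _ => card_eq_sum (G a), ← Finset.sum_add_distrib]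
  apply Finset.sum_le_sum
  intro a _
  rw [← Finset.sum_add_distrib]
  apply Finset.sum_le_sum
  intro b _
  by_cases hab : a = b
  · rw [if_pos hab]; split_ifs <;> norm_num
  · rw [if_neg hab]
    by_cases h1 : a ∈ F b
    · have h2 : b ∉ G a := fun h2 => hab (h a b h1 h2)
      rw [if_pos h1, if_neg h2]
    · rw [if_neg h1]; split_ifs <;> norm_num

end Abs

/-! ### Oriented graphs -/

section Gr

variable {V : Type*} [Fintype V]

/-- Closed adjacency. -/
def RR (D : OGraph V) (u x : V) : Prop := u = x ∨ D.arc u x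

/-- Closed out-neighbourhood of a set. -/
noncomputable def cl (D : OGraph V) (S : Finset V) : Finset V :=
  univ.filter fun x => ∃ u ∈ S, RR D u x

theorem mem_cl {D : OGraph V} {S : Finset V} {x : V} : x ∈ cl D S ↔ ∃ u ∈ S, RR D u x := by
  simp [cl]

theorem sub_cl (D : OGraph V) (S : Finset V) : S ⊆ cl D S :=
  fun x hx => mem_cl.2 ⟨x, hx, Or.inl rfl⟩

theorem cl_mono (D : OGraph V) {S T : Finset V} (h : S ⊆ T) : cl D S ⊆ cl D T := by
  intro x hx
  obtain ⟨u, hu, hux⟩ := mem_cl.1 hx
  exact mem_cl.2 ⟨u, h hu, hux⟩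

theorem cl_union (D : OGraph V) (S T : Finset V) : cl D (S ∪ T) = cl D S ∪ cl D T := by
  ext x
  simp only [mem_cl, Finset.mem_union]
  constructor
  · rintro ⟨u, hu | hu, hux⟩
    · exact Or.inl ⟨u, hu, hux⟩
    · exact Or.inr ⟨u, hu, hux⟩
  · rintro (⟨u, hu, hux⟩ | ⟨u, hu, hux⟩)
    · exact ⟨u, Or.inl hu, hux⟩
    · exact ⟨u, Or.inr hu, hux⟩

/-- `|N[S]| - |S|`. -/
noncomputable def cc (D : OGraph V) (S : Finset V) : ℤ := ((cl D S).card : ℤ) - S.card

theorem cc_sub (D : OGraph V) : Sub (cc D) := by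
  intro S T
  have h2 : cl D (S ∩ T) ⊆ cl D S ∩ cl D T := Finset.subset_inter
    (cl_mono D Finset.inter_subset_left) (cl_mono D Finset.inter_subset_right)
  have h3 := Finset.card_union_add_card_inter S T
  have h4 := Finset.card_union_add_card_inter (cl D S) (cl D T)
  have h5 := Finset.card_le_card h2
  unfold cc
  rw [cl_union]
  omega

/-- A counterexample to the second neighbourhood conjecture. -/
def CE (D : OGraph V) : Prop := ∀ v, (N2 D v).card < (N1 D v).card

/-- The number of arcs. -/
noncomputable def arcs (D : OGraph V) : ℕ := (univ.filter fun p : V × V => D.arc p.1 p.2).card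

theorem exists_min {D : OGraph V} (h : CE D) :
    ∃ D' : OGraph V, CE D' ∧ ∀ D'' : OGraph V, CE D'' → arcs D' ≤ arcs D'' := by
  have hex : ∃ n, ∃ D' : OGraph V, CE D' ∧ arcs D' = n := ⟨_, D, h, rfl⟩
  obtain ⟨D', h1, h2⟩ := Nat.find_spec hex
  refine ⟨D', h1, fun D'' h3 => ?_⟩
  rw [h2]
  exact Nat.find_min' hex ⟨D'', h3, rfl⟩

/-- Delete all arcs from `X` to vertices outside `X ∪ T`. -/
def del (D : OGraph V) (X T : Finset V) : OGraph V where
  arc u x := D.arc u x ∧ (u ∈ X → x ∈ X ∨ x ∈ T)
  loopless v h := D.loopless v h.1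
  asymm u v h h' := D.asymm u v h.1 h'.1

theorem Gineq {D : OGraph V} (hD : CE D) (hmin : ∀ D' : OGraph V, CE D' → arcs D ≤ arcs D')
    (X : Finset V) (hX : cl D X ≠ X) : cc D (cl D X) < cc D X := by
  by_contra hcon
  rw [not_lt] at hcon
  set L := cl D X \ X with hL
  have hLX : cl D X = X ∪ L := by
    rw [hL, Finset.union_sdiff_of_subset (sub_cl D X)]
  have hLne : L.Nonempty := by
    rw [Finset.nonempty_iff_ne_empty]
    intro h0
    rw [h0, Finset.union_empty] at hLX
    exact hX hLX
  have hdis : Disjoint X L := Finset.disjoint_sdiff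
  have hcardcl : (cl D X).card = X.card + L.card := by
    rw [hLX, Finset.card_union_of_disjoint hdis]
  have hLcl : L ⊆ cl D L := sub_cl D L
  have hdL : 2 * L.card ≤ (cl D L \ X).card := by
    have h1 : cl D (cl D X) ⊆ X ∪ (cl D L \ X) := by
      intro x hx
      rw [hLX, cl_union, hLX] at hx
      simp only [Finset.mem_union, Finset.mem_sdiff] at hx ⊢
      by_cases hxX : x ∈ X
      · exact Or.inl hxX
      · rcases hx with (hx | hx) | hx
        · exact absurd hx hxX
        · exact Or.inr ⟨hLcl hx, hxX⟩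
        · exact Or.inr ⟨hx, hxX⟩
    have h2 := (Finset.card_le_card h1).trans (Finset.card_union_le _ _)
    unfold cc at hcon
    rw [hcardcl] at hcon
    push_cast at hcon
    omega
  obtain ⟨T, hT, hTmin⟩ := Finset.exists_min_image L.ssubsets
    (fun T => (((cl D T) \ X).card : ℤ) - 2 * T.card)
    ⟨∅, by rw [Finset.mem_ssubsets]; exact hLne.empty_ssubset⟩
  rw [Finset.mem_ssubsets] at hT
  have hT0 : (((cl D T) \ X).card : ℤ) - 2 * T.card ≤ 0 := by
    have := hTmin ∅ (by rw [Finset.mem_ssubsets]; exact hLne.empty_ssubset)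
    have e : cl D (∅ : Finset V) = ∅ := by ext; simp [mem_cl]
    rw [e] at this
    simpa using this
  have key : ∀ E : Finset V, E ⊆ L → Disjoint T E →
      2 * E.card ≤ (cl D E \ (cl D T ∪ X)).card := by
    intro E hE hTE
    have h1 : (((cl D T) \ X).card : ℤ) - 2 * T.card ≤
        (((cl D (T ∪ E)) \ X).card : ℤ) - 2 * (T ∪ E).card := by
      by_cases hTEL : T ∪ E = L
      · rw [hTEL]
        refine hT0.trans ?_
        have : (2 * L.card : ℤ) ≤ (cl D L \ X).card := by exact_mod_cast hdL
        linarith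
      · exact hTmin _ (by
          rw [Finset.mem_ssubsets, Finset.ssubset_iff_subset_ne]
          exact ⟨Finset.union_subset hT.1 hE, hTEL⟩)
    rw [Finset.card_union_of_disjoint hTE] at h1
    have h2 : cl D (T ∪ E) \ X ⊆ (cl D T \ X) ∪ (cl D E \ (cl D T ∪ X)) := by
      intro x hx
      rw [cl_union] at hx
      simp only [Finset.mem_union, Finset.mem_sdiff] at hx ⊢
      tauto
    have h3 := (Finset.card_le_card h2).trans (Finset.card_union_le _ _)
    push_cast at h1
    omega
  -- the graph with arcs deleted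
  have hCE : CE (del D X T) := by
    intro v
    by_cases hv : v ∈ X
    · set Dy := (N1 D v).filter fun x => x ∉ X ∧ x ∉ T with hDy
      have hDyL : Dy ⊆ L := by
        intro x hx
        rw [hDy, Finset.mem_filter, mem_N1] at hx
        rw [hL, Finset.mem_sdiff, mem_cl]
        exact ⟨⟨v, hv, Or.inr hx.1⟩, hx.2.1⟩
      have hDyT : Disjoint T Dy := by
        rw [Finset.disjoint_right]
        intro x hx
        rw [hDy, Finset.mem_filter] at hx
        exact hx.2.2
      have hk := key Dy hDyL hDyT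
      set E := cl D Dy \ (cl D T ∪ X) with hE
      have hN1 : (N1 (del D X T) v).card + Dy.card = (N1 D v).card := by
        rw [← Finset.card_union_of_disjoint]
        · congr 1
          ext x
          simp only [hDy, Finset.mem_union, mem_N1, Finset.mem_filter, del]
          constructor
          · rintro (h | h)
            · exact h.1
            · exact h.1
          · intro h
            by_cases hx : x ∈ X ∨ x ∈ T
            · exact Or.inl ⟨h, fun _ => hx⟩
            · rw [not_or] at hx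
              exact Or.inr ⟨h, hx⟩
        · rw [Finset.disjoint_left]
          intro x hx hx'
          rw [mem_N1] at hx
          rw [hDy, Finset.mem_filter] at hx'
          rcases hx.2 hv with h | h
          · exact hx'.2.1 h
          · exact hx'.2.2 h
      have hsub1 : N2 (del D X T) v ⊆ N2 D v ∪ Dy := by
        intro z hz
        rw [mem_N2] at hz
        obtain ⟨hzv, hnz, u, hu, huz⟩ := hz
        rw [Finset.mem_union, mem_N2]
        by_cases hvz : D.arc v z
        · right
          rw [hDy, Finset.mem_filter, mem_N1]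
          refine ⟨hvz, ?_⟩
          rw [← not_or]
          exact fun h => hnz ⟨hvz, fun _ => h⟩
        · exact Or.inl ⟨hzv, hvz, u, hu.1, huz.1⟩
      have hsub2 : E ⊆ N2 D v ∪ Dy := by
        intro z hz
        rw [hE, Finset.mem_sdiff, Finset.mem_union, not_or, mem_cl, mem_cl] at hz
        obtain ⟨⟨u, hu, huz⟩, hzT, hzX⟩ := hz
        have hu' := hu
        rw [hDy, Finset.mem_filter, mem_N1] at hu'
        rw [Finset.mem_union, mem_N2]
        rcases huz with huz | huz
        · subst huz; exact Or.inr hu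
        · have hzv : z ≠ v := fun h => hzX (h ▸ hv)
          by_cases hvz : D.arc v z
          · right
            rw [hDy, Finset.mem_filter, mem_N1]
            exact ⟨hvz, hzX, fun h => hzT ⟨z, h, Or.inl rfl⟩⟩
          · exact Or.inl ⟨hzv, hvz, u, hu'.1, huz⟩
      have hdisj : Disjoint (N2 (del D X T) v) E := by
        rw [Finset.disjoint_left]
        intro z hz hzE
        rw [mem_N2] at hz
        obtain ⟨_, _, u, hu, huz⟩ := hz
        rw [hE, Finset.mem_sdiff, Finset.mem_union, not_or, mem_cl] at hzE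
        obtain ⟨_, hzT, hzX⟩ := hzE
        rcases hu.2 hv with hu' | hu'
        · rcases huz.2 hu' with h | h
          · exact hzX h
          · exact hzT (mem_cl.2 ⟨z, h, Or.inl rfl⟩)
        · exact hzT (mem_cl.2 ⟨u, hu', Or.inr huz.1⟩)
      have hc1 := Finset.card_le_card (Finset.union_subset hsub1 hsub2)
      rw [Finset.card_union_of_disjoint hdisj] at hc1
      have hc2 := Finset.card_union_le (N2 D v) Dy
      have hc3 := hD v
      omega
    · have e1 : N1 (del D X T) v = N1 D v := by
        ext x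
        simp only [mem_N1, del]
        exact ⟨fun h => h.1, fun h => ⟨h, fun h' => absurd h' hv⟩⟩
      have e2 : N2 (del D X T) v ⊆ N2 D v := by
        intro z hz
        rw [mem_N2] at hz ⊢
        obtain ⟨hzv, hnz, u, hu, huz⟩ := hz
        exact ⟨hzv, fun h => hnz ⟨h, fun h' => absurd h' hv⟩, u, hu.1, huz.1⟩
      rw [e1]
      exact lt_of_le_of_lt (Finset.card_le_card e2) (hD v)
  have hle := hmin _ hCE
  obtain ⟨x, hxL, hxT⟩ := Finset.exists_of_ssubset hT
  have hx' := hxL
  rw [hL, Finset.mem_sdiff, mem_cl] at hx'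
  obtain ⟨⟨u, hu, hux⟩, hxX⟩ := hx'
  rcases hux with hux | hux
  · exact hxX (hux ▸ hu)
  have hlt : arcs (del D X T) < arcs D := by
    unfold arcs
    apply Finset.card_lt_card
    rw [Finset.ssubset_iff_of_subset]
    · refine ⟨(u, x), ?_, ?_⟩
      · rw [Finset.mem_filter]
        exact ⟨Finset.mem_univ _, hux⟩
      · rw [Finset.mem_filter]
        intro h
        rcases h.2.2 hu with h' | h'
        · exact hxX h'
        · exact hxT h'
    · intro p hp
      rw [Finset.mem_filter] at hp ⊢
      exact ⟨hp.1, hp.2.1⟩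
  omega

theorem Gineq' {D : OGraph V} (hD : CE D) (hmin : ∀ D' : OGraph V, CE D' → arcs D ≤ arcs D')
    (X : Finset V) : cc D (cl D X) ≤ cc D X := by
  by_cases h : cl D X = X
  · rw [h]
  · exact (Gineq hD hmin X h).le

/-- Outer pairs. -/
def Pr (D : OGraph V) (P Q : V → Finset V) : Prop :=
  (∀ a x, RR D a x → x ∈ P a) ∧ (∀ a x, RR D a x → x ∈ Q a) ∧ ∀ a b, b ∈ P a → a ∈ Q b → a = b

theorem sum_upd (f : Finset V → ℤ) (P : V → Finset V) (a : V) (S : Finset V) :
    ∑ v, f (Function.update P a S v) = ∑ v, f (P v) + (f S - f (P a)) := by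
  have e : ∀ v, f (Function.update P a S v) = f (P v) + if v = a then f S - f (P a) else 0 := by
    intro v
    by_cases h : v = a
    · subst h; simp
    · simp [h]
  rw [Finset.sum_congr rfl fun v _ => e v, Finset.sum_add_distrib]
  simp

theorem main {D : OGraph V} [Nonempty V] (hD : CE D)
    (hmin : ∀ D' : OGraph V, CE D' → arcs D ≤ arcs D') : False := by
  have hex : (univ.filter fun pq : (V → Finset V) × (V → Finset V) =>
      Pr D pq.1 pq.2).Nonempty := by
    refine ⟨(fun a => cl D {a}, fun a => cl D {a}), ?_⟩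
    rw [Finset.mem_filter]
    refine ⟨Finset.mem_univ _, ?_, ?_, ?_⟩
    · intro a x h; exact mem_cl.2 ⟨a, by simp, h⟩
    · intro a x h; exact mem_cl.2 ⟨a, by simp, h⟩
    · intro a b h1 h2
      obtain ⟨u, hu, k1⟩ := mem_cl.1 h1
      obtain ⟨u', hu', k2⟩ := mem_cl.1 h2
      rw [Finset.mem_singleton] at hu hu'
      subst hu; subst hu'
      rcases k1 with k1 | k1
      · exact k1
      · rcases k2 with k2 | k2
        · exact k2.symm
        · exact absurd k2 (D.asymm _ _ k1)
  obtain ⟨⟨P, Q⟩, hPQ, hopt⟩ := Finset.exists_min_image _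
    (fun pq : (V → Finset V) × (V → Finset V) => ∑ a, cc D (pq.1 a) + ∑ a, cc D (pq.2 a)) hex
  rw [Finset.mem_filter] at hPQ
  obtain ⟨_, hP, hQ, hdj⟩ := hPQ
  simp only at hP hQ hdj hopt
  have hopt' : ∀ P' Q', Pr D P' Q' →
      ∑ a, cc D (P a) + ∑ a, cc D (Q a) ≤ ∑ a, cc D (P' a) + ∑ a, cc D (Q' a) := by
    intro P' Q' h
    exact hopt (P', Q') (by rw [Finset.mem_filter]; exact ⟨Finset.mem_univ _, h⟩)
  set K : V → Finset V := fun a => univ.filter fun x => x = a ∨ a ∉ Q x with hK
  have mK : ∀ a x, x ∈ K a ↔ x = a ∨ a ∉ Q x := by intro a x; simp [hK]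
  have hPK : ∀ a, P a ⊆ K a := by
    intro a x hx
    rw [mK]
    by_cases h : x = a
    · exact Or.inl h
    · exact Or.inr fun h' => h (hdj a x hx h').symm
  have hrow : ∀ a S, P a ⊆ S → S ⊆ K a → cc D (P a) ≤ cc D S := by
    intro a S h1 h2
    have := hopt' (Function.update P a S) Q ⟨?_, hQ, ?_⟩
    · rw [sum_upd] at this
      linarith
    · intro a' x h
      by_cases e : a' = a
      · subst e; rw [Function.update_self]; exact h1 (hP _ _ h)
      · rw [Function.update_of_ne e]; exact hP _ _ h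
    · intro a' b h h'
      by_cases e : a' = a
      · subst e
        rw [Function.update_self] at h
        rcases (mK _ _).1 (h2 h) with h3 | h3
        · exact h3.symm
        · exact absurd h' h3
      · rw [Function.update_of_ne e] at h
        exact hdj _ _ h h'
  have hcol : ∀ b (T : Finset V), (∀ z ∈ T, b ∈ K z ∧ b ∉ P z) →
      T.card ≤ (univ.filter fun a => (∃ z ∈ T, RR D z a) ∧ ∀ z, RR D z a → b ∈ K z).card := by
    intro b T hT
    have hdisj : Disjoint (Q b) T := by
      rw [Finset.disjoint_right]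
      intro z hz hzQ
      obtain ⟨h1, h2⟩ := hT z hz
      rcases (mK _ _).1 h1 with h3 | h3
      · exact h2 (h3 ▸ hP b b (Or.inl rfl))
      · exact h3 hzQ
    have := hopt' P (Function.update Q b (Q b ∪ T)) ⟨hP, ?_, ?_⟩
    · rw [sum_upd] at this
      have h3 : cc D (Q b) ≤ cc D (Q b ∪ T) := by linarith
      unfold cc at h3
      rw [Finset.card_union_of_disjoint hdisj] at h3
      have h4 : cl D (Q b ∪ T) ⊆ cl D (Q b) ∪
          (univ.filter fun a => (∃ z ∈ T, RR D z a) ∧ ∀ z, RR D z a → b ∈ K z) := by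
        intro a ha
        rw [Finset.mem_union, Finset.mem_filter]
        by_cases h5 : a ∈ cl D (Q b)
        · exact Or.inl h5
        · right
          refine ⟨Finset.mem_univ _, ?_, ?_⟩
          · rw [cl_union, Finset.mem_union] at ha
            rcases ha with ha | ha
            · exact absurd ha h5
            · exact mem_cl.1 ha
          · intro z hz
            rw [mK]
            exact Or.inr fun h6 => h5 (mem_cl.2 ⟨z, h6, hz⟩)
      have h5 := (Finset.card_le_card h4).trans (Finset.card_union_le _ _)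
      push_cast at h3
      omega
    · intro a' x h
      by_cases e : a' = b
      · subst e; rw [Function.update_self]; exact Finset.mem_union_left _ (hQ _ _ h)
      · rw [Function.update_of_ne e]; exact hQ _ _ h
    · intro a' b' h h'
      by_cases e : b' = b
      · subst e
        rw [Function.update_self, Finset.mem_union] at h'
        rcases h' with h' | h'
        · exact hdj _ _ h h'
        · exact absurd h (hT _ h').2
      · rw [Function.update_of_ne e] at h'
        exact hdj _ _ h h'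
  have hstar := star (cc_sub D) (RR D) P K hPK hrow hcol
  rw [Finset.sum_sub_distrib, Finset.sum_sub_distrib] at hstar
  have rr : ∀ a, RR D a a := fun a => Or.inl rfl
  have c1 := count_ge (II (RR D) Q) (fun a => cl D (K a)) (by
    intro a b _
    by_cases h : a ∈ II (RR D) Q b
    · exact Or.inl h
    · right
      rw [mem_II] at h
      push_neg at h
      obtain ⟨z, hz, hz'⟩ := h
      exact mem_cl.2 ⟨z, (mK _ _).2 (Or.inr hz'), hz⟩) (by
    intro a
    exact ⟨mem_II.2 fun z hz => hQ _ _ hz, sub_cl D _ ((mK _ _).2 (Or.inl rfl))⟩)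
  have compat : ∀ a b, a ∈ cl D (II (RR D) Q b) → b ∈ cl D (II (RR D) K a) → a = b := by
    intro a b h1 h2
    obtain ⟨y, hy, hya⟩ := mem_cl.1 h1
    obtain ⟨x, hx, hxb⟩ := mem_cl.1 h2
    have h3 : x ∈ K y := mem_II.1 hx y hya
    have h4 : y ∈ Q x := mem_II.1 hy x hxb
    rcases (mK _ _).1 h3 with h5 | h5
    · subst h5
      have h6 : x ∈ K a := mem_II.1 hx a (rr a)
      rcases (mK _ _).1 h6 with h7 | h7
      · subst h7
        exact hdj _ _ (hP _ _ hxb) (mem_II.1 hy b (rr b))
      · exact absurd (hQ _ _ hya) h7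
    · exact absurd h4 h5
  have c2 := count_le (fun b => cl D (II (RR D) Q b)) (fun a => cl D (II (RR D) K a)) compat
  have c3 := count_le Q K (by
    intro a b h1 h2
    rcases (mK _ _).1 h2 with h3 | h3
    · exact h3.symm
    · exact absurd h1 h3)
  have c4 := count_ge (fun b => cl D (Q b)) (II (RR D) K) (by
    intro a b _
    by_cases h : a ∈ cl D (Q b)
    · exact Or.inl h
    · right
      rw [mem_II]
      intro z hz
      exact (mK _ _).2 (Or.inr fun h' => h (mem_cl.2 ⟨z, h', hz⟩))) (by
    intro a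
    refine ⟨sub_cl D _ (hQ _ _ (rr a)), mem_II.2 fun z hz => ?_⟩
    exact hPK z (hP _ _ hz))
  have hpair : Pr D (fun a => cl D (II (RR D) P a)) (fun a => cl D (II (RR D) Q a)) := by
    refine ⟨?_, ?_, ?_⟩
    · intro a x h
      exact mem_cl.2 ⟨a, mem_II.2 fun z hz => hP _ _ hz, h⟩
    · intro a x h
      exact mem_cl.2 ⟨a, mem_II.2 fun z hz => hQ _ _ hz, h⟩
    · intro a b h1 h2
      apply compat a b h2
      refine cl_mono D ?_ h1
      intro x hx
      exact mem_II.2 fun z hz => hPK z (mem_II.1 hx z hz)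
  have hfin := hopt' _ _ hpair
  simp only [cc, Finset.sum_sub_distrib] at hstar hfin
  have g1 : ∀ a, cc D (cl D (II (RR D) P a)) ≤ cc D (II (RR D) P a) := fun a =>
    Gineq' hD hmin _
  have g2 : ∑ a, cc D (cl D (II (RR D) Q a)) ≤ ∑ a, cc D (II (RR D) Q a) :=
    Finset.sum_le_sum fun a _ => Gineq' hD hmin _
  have hclosed : ∀ a, cl D (II (RR D) P a) = II (RR D) P a := by
    intro a
    by_contra hne
    have g3 : ∑ a, cc D (cl D (II (RR D) P a)) < ∑ a, cc D (II (RR D) P a) :=
      Finset.sum_lt_sum (fun a _ => g1 a) ⟨a, Finset.mem_univ a, Gineq hD hmin _ hne⟩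
    simp only [cc, Finset.sum_sub_distrib] at g2 g3
    linarith
  -- a minimal nonempty closed set
  obtain ⟨C, hC, hCmin⟩ := Finset.exists_min_image
    ((univ : Finset (Finset V)).filter fun C => C.Nonempty ∧ cl D C = C) Finset.card
    ⟨univ, by
      rw [Finset.mem_filter]
      exact ⟨Finset.mem_univ _, Finset.univ_nonempty,
        Finset.Subset.antisymm (Finset.subset_univ _) (sub_cl D _)⟩⟩
  rw [Finset.mem_filter] at hC
  obtain ⟨_, ⟨a, ha⟩, hCcl⟩ := hC
  have hN : (N1 D a).Nonempty := by
    rw [← Finset.card_pos]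
    have := hD a
    omega
  obtain ⟨b, hb⟩ := hN
  rw [mem_N1] at hb
  have hbC : b ∈ C := by
    rw [← hCcl]
    exact mem_cl.2 ⟨a, ha, Or.inr hb⟩
  have hbS : b ∈ II (RR D) P b := mem_II.2 fun z hz => hP _ _ hz
  have hle := hCmin (II (RR D) P b ∩ C) (by
    rw [Finset.mem_filter]
    refine ⟨Finset.mem_univ _, ⟨b, Finset.mem_inter.2 ⟨hbS, hbC⟩⟩, ?_⟩
    apply Finset.Subset.antisymm _ (sub_cl D _)
    apply Finset.subset_inter
    · calc cl D (II (RR D) P b ∩ C) ⊆ cl D (II (RR D) P b) :=
            cl_mono D Finset.inter_subset_left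
        _ = _ := hclosed b
    · calc cl D (II (RR D) P b ∩ C) ⊆ cl D C := cl_mono D Finset.inter_subset_right
        _ = _ := hCcl)
  have heq : II (RR D) P b ∩ C = C :=
    Finset.eq_of_subset_of_card_le Finset.inter_subset_right hle
  have haS : a ∈ II (RR D) P b := (Finset.mem_inter.1 (heq ▸ ha)).1
  have h1 : a ∈ P b := mem_II.1 haS b (rr b)
  have h2 : b ∈ Q a := hQ _ _ (Or.inr hb)
  have h3 := hdj b a h1 h2
  subst h3
  exact D.loopless _ hb

end Gr

/-- **Seymour's second neighbourhood conjecture.** -/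
theorem seymour {V : Type*} [Fintype V] [Nonempty V] (D : OGraph V) :
    ∃ v, (N1 D v).card ≤ (N2 D v).card := by
  by_contra h
  push_neg at h
  obtain ⟨D', h1, h2⟩ := exists_min (D := D) h
  exact main h1 h2

end Vale.Agent.P038.H112
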